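import Vale.Agent.P218N.C0.Huisken
import Vale.Agent.P218.Slow

/-! Translates of a shrinker along a ray: slow variation, good radii, limits of Gaussian ratios. -/

open MeasureTheory Set Filter Topology Metric
open scoped ENNReal NNReal RealInnerProductSpace

namespace Vale.Agent.P218N.C0

open Vale.Agent.P214 (proj divAlong)
open Vale.Agent.P218 Vale.Agent.P218.H313 Vale.Agent.P218N.G
open Vale.Agent.P218.H552 (MC)

set_option linter.unusedSectionVars false
set_option linter.unusedVariables false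

variable {E : Type*} [NormedAddCommGroup E] [InnerProductSpace ℝ E] [FiniteDimensional ℝ E]
  [MeasurableSpace E] [BorelSpace E]
variable {m : ℕ} {μ : Measure E} {T : E → Submodule ℝ E} {H : E → E} {C₀ : ℝ}

/-- the translate of `μ` by `-c` -/
noncomputable def tl (μ : Measure E) (c : E) : Measure E := μ.map fun x => x - c

lemma emb_sub (c : E) : MeasurableEmbedding fun x : E => x - c :=
  (Homeomorph.subRight c).measurableEmbedding

lemma integral_tl (μ : Measure E) (c : E) (g : E → ℝ) :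
    ∫ x, g x ∂(tl μ c) = ∫ x, g (x - c) ∂μ := (emb_sub c).integral_map g

lemma tl_apply (μ : Measure E) (c : E) (A : Set E) : tl μ c A = μ ((fun x => x - c) ⁻¹' A) :=
  (emb_sub c).map_apply μ A

lemma tl_closedBall (μ : Measure E) (c x : E) (r : ℝ) :
    tl μ c (closedBall x r) = μ (closedBall (c + x) r) := by
  rw [tl_apply]
  congr 1
  ext y
  simp only [mem_preimage, mem_closedBall, dist_eq_norm]
  rw [sub_sub]

lemma tl_tl (μ : Measure E) (c c' : E) : tl (tl μ c) c' = tl μ (c + c') := by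
  unfold tl
  rw [Measure.map_map (emb_sub c').measurable (emb_sub c).measurable]
  congr 1
  ext1 x
  simp only [Function.comp_apply, sub_sub]

lemma BB.tl (h : BB μ C₀) (c : E) : BB (tl μ c) C₀ := fun x => by
  rw [tl_closedBall]; exact h _

lemma GG_tl (m : ℕ) (μ : Measure E) (c z : E) (t : ℝ) : GG m (tl μ c) z t = GG m μ (c + z) t := by
  unfold GG
  rw [integral_tl]
  simp only [gk, sub_sub]

/-- the mass of large balls -/
theorem exists_ball_bound (E : Type*) [NormedAddCommGroup E] [InnerProductSpace ℝ E]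
    [FiniteDimensional ℝ E] [MeasurableSpace E] [BorelSpace E] (R : ℝ) :
    ∃ C : ℝ, 0 ≤ C ∧ ∀ (μ : Measure E) (C₀ : ℝ), 0 ≤ C₀ → BB μ C₀ → ∀ c,
      μ (closedBall c R) ≤ ENNReal.ofReal (C * C₀) := by
  obtain ⟨C, hC, h⟩ := exists_gk_bound E one_pos
  refine ⟨Real.exp (R ^ 2 / 4) * C, by positivity, fun μ C₀ h0 hμ c => ?_⟩
  obtain ⟨h1, h2⟩ := h μ C₀ h0 hμ c
  calc μ (closedBall c R) ≤ ∫⁻ x, ENNReal.ofReal (Real.exp (R ^ 2 / 4) * gk c 1 x) ∂μ := by
        rw [← lintegral_indicator_one measurableSet_closedBall]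
        refine lintegral_mono fun x => ?_
        by_cases hx : x ∈ closedBall c R
        · rw [indicator_of_mem hx, Pi.one_apply, ← ENNReal.ofReal_one]
          refine ENNReal.ofReal_le_ofReal ?_
          unfold gk
          rw [← Real.exp_add]
          refine Real.one_le_exp ?_
          rw [mem_closedBall, dist_eq_norm] at hx
          have := pow_le_pow_left₀ (norm_nonneg _) hx 2
          linarith
        · rw [indicator_of_notMem hx]; exact zero_le
    _ = ENNReal.ofReal (∫ x, Real.exp (R ^ 2 / 4) * gk c 1 x ∂μ) :=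
        (ofReal_integral_eq_lintegral_ofReal (h1.const_mul _) (Eventually.of_forall fun x =>
          mul_nonneg (Real.exp_pos _).le (gk_pos _ _ _).le)).symm
    _ ≤ _ := by
        rw [integral_const_mul, mul_assoc]
        exact ENNReal.ofReal_le_ofReal (by gcongr)

/-! ### weak limits -/

/-- weak convergence along a filter -/
def WT {ι : Type*} (l : Filter ι) (u : ι → Measure E) (κ : Measure E) : Prop :=
  ∀ φ : E → ℝ, Continuous φ → HasCompactSupport φ →
    Tendsto (fun i => ∫ x, φ x ∂(u i)) l (𝓝 (∫ x, φ x ∂κ))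

variable {ι : Type*} {l : Filter ι} {u : ι → Measure E} {κ : Measure E}

lemma WT.mono (h : WT l u κ) {l' : Filter ι} (hl : l' ≤ l) : WT l' u κ :=
  fun φ h1 h2 => (h φ h1 h2).mono_left hl

lemma WT.unique [l.NeBot] {κ' : Measure E} [IsLocallyFiniteMeasure κ] [IsLocallyFiniteMeasure κ']
    (h : WT l u κ) (h' : WT l u κ') : κ = κ' :=
  fnl_injective (funext fun φ => tendsto_nhds_unique (h φ φ.continuous φ.hasCompactSupport)
    (h' φ φ.continuous φ.hasCompactSupport))

lemma WT.tl (h : WT l u κ) (c : E) : WT l (fun i => tl (u i) c) (tl κ c) := fun φ h1 h2 => by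
  simp only [integral_tl]
  exact h _ (by fun_prop) (h2.comp_homeomorph (Homeomorph.subRight c))

lemma WT.measure_le [l.NeBot] [IsLocallyFiniteMeasure κ] (h : WT l u κ) {K O : Set E}
    (hK : IsCompact K) (hO : IsOpen O) (hKO : K ⊆ O) {C : ℝ} (hC : 0 ≤ C)
    (hu : ∀ᶠ i in l, u i O ≤ ENNReal.ofReal C) : κ K ≤ ENNReal.ofReal C := by
  obtain ⟨f, f1, f2, f3, f4⟩ := exists_continuousMap_one_of_isCompact_subset_isOpen hK hO hKO
  have h1 : ∫ x, f x ∂κ ≤ C := by
    refine le_of_tendsto (h f f.continuous f2) ?_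
    filter_upwards [hu] with i hi
    rw [integral_eq_lintegral_of_nonneg_ae (Eventually.of_forall fun x => (f4 x).1)
      f.continuous.aestronglyMeasurable]
    refine ENNReal.toReal_le_of_le_ofReal hC (le_trans ?_ hi)
    rw [← lintegral_indicator_one hO.measurableSet]
    refine lintegral_mono fun x => ?_
    by_cases hx : x ∈ O
    · rw [indicator_of_mem hx]; exact ENNReal.ofReal_le_one.2 (f4 x).2
    · rw [image_eq_zero_of_notMem_tsupport fun h => hx (f3 h), ENNReal.ofReal_zero]; exact zero_le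
  refine le_trans ?_ (ENNReal.ofReal_le_ofReal h1)
  rw [ofReal_integral_eq_lintegral_ofReal (f.continuous.integrable_of_hasCompactSupport f2)
    (Eventually.of_forall fun x => (f4 x).1), ← lintegral_indicator_one hK.measurableSet]
  refine lintegral_mono fun x => ?_
  by_cases hx : x ∈ K
  · rw [indicator_of_mem hx, f1 hx]; simp
  · rw [indicator_of_notMem hx]; exact zero_le

lemma WT.bb [l.NeBot] [IsLocallyFiniteMeasure κ] (h : WT l u κ) (hu : ∀ᶠ i in l, BB (u i) C₀) :
    ∃ C₁, BB κ C₁ := by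
  obtain ⟨C, hC, h1⟩ := exists_ball_bound E 2
  refine ⟨C * max C₀ 0, fun x => h.measure_le (isCompact_closedBall x 1) isOpen_ball
    (closedBall_subset_ball one_lt_two) (by positivity) ?_⟩
  filter_upwards [hu] with i hi
  exact (measure_mono ball_subset_closedBall).trans (h1 _ _ (le_max_right _ _) hi.max x)

lemma gk_tail (z : E) {t ε : ℝ} (ht : 0 < t) (hε : 0 < ε) :
    ∃ R, ∀ x, R ≤ ‖x - z‖ → gk z t x ≤ ε * gk z (2 * t) x := by
  refine ⟨√(8 * t * |Real.log ε|), fun x hx => ?_⟩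
  have h1 : 8 * t * |Real.log ε| ≤ ‖x - z‖ ^ 2 := (Real.sqrt_le_left (norm_nonneg _)).1 hx
  have h2 : |Real.log ε| ≤ ‖x - z‖ ^ 2 / (8 * t) := by rw [le_div_iff₀ (by positivity)]; linarith
  unfold gk
  rw [← Real.exp_log hε, ← Real.exp_add]
  refine Real.exp_le_exp.2 ?_
  have h3 : -‖x - z‖ ^ 2 / (4 * t) = -‖x - z‖ ^ 2 / (4 * (2 * t)) - ‖x - z‖ ^ 2 / (8 * t) := by
    field_simp; ring
  linarith [neg_abs_le (Real.log ε)]

lemma gk_unif (z : E) {t ε : ℝ} (ht : 0 < t) (hε : 0 < ε) :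
    ∀ᶠ p : E × ℝ in 𝓝 (z, t), ∀ x, |gk p.1 p.2 x - gk z t x| ≤ ε * gk z (8 * t) x := by
  obtain ⟨R, hR⟩ := gk_tail z (t := 4 * t) (ε := ε / Real.exp (1 / (8 * t))) (by positivity)
    (by positivity)
  have h1 : ∀ᶠ p : E × ℝ in 𝓝 (z, t), ∀ x ∈ closedBall z R,
      |gk p.1 p.2 x - gk z t x| < ε * gk z (8 * t) x := by
    refine (isCompact_closedBall z R).eventually_forall_of_forall_eventually fun x hx => ?_
    have a1 : ContinuousAt (fun q : (E × ℝ) × E => |gk q.1.1 q.1.2 q.2 - gk z t q.2|)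
        ((z, t), x) := by
      unfold gk
      fun_prop (disch := simp; positivity)
    have a2 : ContinuousAt (fun q : (E × ℝ) × E => ε * gk z (8 * t) q.2) ((z, t), x) := by
      unfold gk
      fun_prop
    refine a1.eventually_lt a2 ?_
    simpa using mul_pos hε (gk_pos _ _ _)
  filter_upwards [h1, ev_near z ht] with p h1 h2 x
  by_cases hx : x ∈ closedBall z R
  · exact (h1 x hx).le
  · rw [mem_closedBall, dist_eq_norm, not_le] at hx
    have a1 := hR x hx.le
    rw [show 2 * (4 * t) = 8 * t by ring] at a1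
    have a2 : Real.exp (1 / (8 * t)) * gk z (4 * t) x ≤ ε * gk z (8 * t) x := by
      rw [div_mul_eq_mul_div, le_div_iff₀ (Real.exp_pos _)] at a1
      linarith
    have a3 := gk_dom (by linarith [h2.1]) h2.2.1.le h2.2.2.le x
    have a4 := gk_dom (c := z) (c₀ := z) ht (by linarith : t ≤ 2 * t) (by simp) x
    rw [abs_le]
    constructor <;> linarith [gk_pos p.1 p.2 x, gk_pos z t x]

lemma cut_gk_approx (z : E) {t ε : ℝ} (ht : 0 < t) (hε : 0 < ε) {C₀ : ℝ} :
    ∃ n : ℕ, ∀ μ : Measure E, BB μ C₀ → |∫ x, gk z t x ∂μ - ∫ x, cut n x * gk z t x ∂μ| ≤ ε := by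
  obtain ⟨C, hC, h1⟩ := exists_gk_bound E (t := 2 * t) (by positivity)
  set B := C * max C₀ 0 + 1 with hB
  have hB0 : 0 < B := by positivity
  obtain ⟨R, hR⟩ := gk_tail z ht (ε := ε / B) (by positivity)
  obtain ⟨n, hn⟩ := exists_nat_ge (R + ‖z‖)
  refine ⟨n, fun μ hμ => ?_⟩
  have := hμ.locFin
  obtain ⟨h2, h3⟩ := h1 μ _ (le_max_right _ _) hμ.max z
  have i1 : Integrable (fun x => cut n x * gk z t x) μ := ((contDiff_cut n).continuous.mul
    (continuous_gk z t)).integrable_of_hasCompactSupport (cut_compact n).mul_right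
  rw [← integral_sub (hμ.integrable_gk z ht) i1, ← Real.norm_eq_abs]
  refine (norm_integral_le_of_norm_le (h2.const_mul (ε / B))
    (Eventually.of_forall fun x => ?_)).trans ?_
  · have a1 := cut_le_one (E := E) n x
    have a2 := cut_nonneg (E := E) n x
    have a3 := gk_pos z t x
    rw [Real.norm_of_nonneg (by nlinarith)]
    by_cases hx : ‖x‖ ≤ (n : ℝ) + 1
    · have : cut n x = 1 := H552.chi_eq_one (cut_pos_arg n) hx
      rw [this, one_mul, sub_self]
      exact mul_nonneg (by positivity) (gk_pos _ _ _).le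
    · have a4 := norm_sub_norm_le x z
      have a5 := hR x (by linarith [not_le.1 hx])
      nlinarith
  · rw [integral_const_mul, div_mul_eq_mul_div, div_le_iff₀ hB0]
    gcongr
    linarith

/-- convergence of the Gaussian ratios -/
theorem WT.tendsto_GG [l.NeBot] [IsLocallyFiniteMeasure κ] (h : WT l u κ)
    (hu : ∀ᶠ i in l, BB (u i) C₀) (m : ℕ) {z : ι → E} {t : ι → ℝ} {z₀ : E} {t₀ : ℝ} (ht : 0 < t₀)
    (h1 : Tendsto z l (𝓝 z₀)) (h2 : Tendsto t l (𝓝 t₀)) :
    Tendsto (fun i => GG m (u i) (z i) (t i)) l (𝓝 (GG m κ z₀ t₀)) := by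
  obtain ⟨C₁, hκ⟩ := h.bb hu
  refine Tendsto.div ?_ (h2.sqrt.pow m) (by positivity)
  have k1 : Tendsto (fun i => ∫ x, gk z₀ t₀ x ∂(u i)) l (𝓝 (∫ x, gk z₀ t₀ x ∂κ)) := by
    refine tendsto_of_approx fun ε hε => ?_
    obtain ⟨n, hn⟩ := cut_gk_approx z₀ ht hε (C₀ := max C₀ C₁)
    refine ⟨_, _, h (fun x => cut n x * gk z₀ t₀ x)
      ((contDiff_cut n).continuous.mul (continuous_gk _ _)) (cut_compact n).mul_right, ?_, hn κ fun x => (hκ x).trans
        (ENNReal.ofReal_le_ofReal (le_max_right _ _))⟩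
    filter_upwards [hu] with i hi
    exact hn _ fun x => (hi x).trans (ENNReal.ofReal_le_ofReal (le_max_left _ _))
  refine tendsto_of_approx fun ε hε => ⟨_, _, k1, ?_, by simpa using hε.le⟩
  obtain ⟨C, hC, h3⟩ := exists_gk_bound E (t := 8 * t₀) (by positivity)
  set B := C * max C₀ 0 + 1 with hB
  have hB0 : 0 < B := by positivity
  filter_upwards [hu, (h1.prodMk_nhds h2).eventually (gk_unif z₀ ht (ε := ε / B) (by positivity)),
    h2.eventually (lt_mem_nhds ht)] with i a1 a2 a3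
  obtain ⟨a4, a5⟩ := h3 _ _ (le_max_right _ _) a1.max z₀
  rw [← integral_sub (a1.integrable_gk _ a3) (a1.integrable_gk _ ht), ← Real.norm_eq_abs]
  refine (norm_integral_le_of_norm_le (a4.const_mul (ε / B)) (Eventually.of_forall a2)).trans ?_
  rw [integral_const_mul, div_mul_eq_mul_div, div_le_iff₀ hB0]
  gcongr
  linarith

/-! ### translates along a ray -/

/-- the translate of `μ` by `-e^τ e` -/
noncomputable def NT (μ : Measure E) (e : E) (τ : ℝ) : Measure E := tl μ (Real.exp τ • e)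

/-- the Gaussian density at infinity in the direction `e` -/
noncomputable def Th (m : ℕ) (μ : Measure E) (e : E) : ℝ := ⨅ τ : ℝ, GG m μ (Real.exp τ • e) 1

/-- the normal part of `e` near `R e` -/
noncomputable def DR (μ : Measure E) (T : E → Submodule ℝ E) (e : E) (R : ℝ) : ℝ :=
  ∫ x, gk (R • e) 1 x * ‖np (T x) e‖ ^ 2 ∂μ

lemma DR_nonneg (μ : Measure E) (T : E → Submodule ℝ E) (e : E) (R : ℝ) : 0 ≤ DR μ T e R :=
  integral_nonneg fun x => mul_nonneg (gk_pos _ _ _).le (sq_nonneg _)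

lemma ShrM.int_DR (h : ShrM m μ T H C₀) (c e : E) :
    Integrable (fun x => gk c 1 x * ‖np (T x) e‖ ^ 2) μ :=
  h.bb.integrable c one_pos (u := fun x => ‖np (T x) e‖ ^ 2)
    ((MC.np_meas h.mc aestronglyMeasurable_const).norm.pow 2) ((pb_np (PB.const e)).norm.pow 2)

lemma ShrM.hasDerivAt_ray (h : ShrM m μ T H C₀) (e : E) (R : ℝ) :
    HasDerivAt (fun R : ℝ => GG m μ (R • e) 1) (-(R / 2) * DR μ T e R) R := by
  simpa [DG, DR] using h.hasDerivAt_GG e 0 (s := R) (by simp)

lemma ShrM.hasDerivAt_exp (h : ShrM m μ T H C₀) (e : E) (τ : ℝ) :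
    HasDerivAt (fun τ : ℝ => GG m μ (Real.exp τ • e) 1)
      (-(Real.exp τ ^ 2 * DR μ T e (Real.exp τ)) / 2) τ :=
  ((h.hasDerivAt_ray e (Real.exp τ)).comp τ (Real.hasDerivAt_exp τ)).congr_deriv (by ring)

lemma ShrM.anti_ray (h : ShrM m μ T H C₀) (e : E) {R R' : ℝ} (h0 : 0 ≤ R) (h1 : R ≤ R') :
    GG m μ (R' • e) 1 ≤ GG m μ (R • e) 1 := by
  simpa using h.GG_anti e 0 h0 h1 (by simp)

lemma ShrM.tendsto_exp (h : ShrM m μ T H C₀) (e : E) :
    Tendsto (fun τ : ℝ => GG m μ (Real.exp τ • e) 1) atTop (𝓝 (Th m μ e)) :=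
  tendsto_atTop_ciInf (fun a b hab => h.anti_ray e (Real.exp_pos a).le (Real.exp_le_exp.2 hab))
    ⟨0, by rintro _ ⟨τ, rfl⟩; exact GG_nonneg _ _ _ _⟩

lemma ShrM.tendsto_ray (h : ShrM m μ T H C₀) (e : E) :
    Tendsto (fun R : ℝ => GG m μ (R • e) 1) atTop (𝓝 (Th m μ e)) := by
  refine ((h.tendsto_exp e).comp Real.tendsto_log_atTop).congr' ?_
  filter_upwards [eventually_gt_atTop 0] with R hR
  rw [Function.comp_apply, Real.exp_log hR]

/-- good radii are dense on a logarithmic scale -/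
theorem ShrM.exists_good (h : ShrM m μ T H C₀) (e : E) {η : ℝ} (hη : 0 < η) :
    ∃ σ : ℝ → ℝ, (∀ τ, τ < σ τ ∧ σ τ < τ + η) ∧
      Tendsto (fun τ => Real.exp (σ τ) ^ 2 * DR μ T e (Real.exp (σ τ))) atTop (𝓝 0) := by
  have key := fun τ : ℝ => exists_hasDerivAt_eq_slope (fun τ : ℝ => GG m μ (Real.exp τ • e) 1) _
    (lt_add_of_pos_right τ hη)
    (fun x _ => (h.hasDerivAt_exp e x).continuousAt.continuousWithinAt)
    (fun x _ => h.hasDerivAt_exp e x)
  choose σ h1 h2 using key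
  refine ⟨σ, h1, ?_⟩
  have h3 := (((h.tendsto_exp e).comp (tendsto_atTop_add_const_right _ η tendsto_id)).sub
    (h.tendsto_exp e)).const_mul (-2 / η)
  rw [sub_self, mul_zero] at h3
  refine h3.congr fun τ => ?_
  have h4 := h2 τ
  rw [add_sub_cancel_left, eq_div_iff hη.ne'] at h4
  simp only [Function.comp_apply, id]
  rw [← h4]
  field_simp

lemma exists_le_rho {F : Type*} [NormedAddCommGroup F] {f : E → F} (hf : Continuous f)
    (hc : HasCompactSupport f) : ∃ A, 0 ≤ A ∧ ∀ z, (1 + ‖z‖) * ‖f z‖ ≤ A * rho z := by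
  have h1 : Continuous fun z : E => ((1 + ‖z‖) / rho z) * ‖f z‖ :=
    (Continuous.div (by fun_prop) continuous_rho fun z => (rho_pos z).ne').mul hf.norm
  obtain ⟨A, hA⟩ := (hc.norm.mul_left (f := fun z : E => (1 + ‖z‖) / rho z)).exists_bound_of_continuous
    h1
  refine ⟨A, (norm_nonneg _).trans (hA 0), fun z => ?_⟩
  have h2 := (le_abs_self _).trans (hA z)
  simp only [Pi.mul_apply] at h2
  rwa [div_mul_eq_mul_div, div_le_iff₀ (rho_pos z)] at h2

lemma BB.hasDerivAt_tl (h : BB μ C₀) (e : E) {φ : E → ℝ} (hφ : ContDiff ℝ 1 φ)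
    (hc : HasCompactSupport φ) (R₀ : ℝ) : HasDerivAt (fun R : ℝ => ∫ x, φ (x - R • e) ∂μ)
      (∫ x, -⟪grad φ (x - R₀ • e), e⟫ ∂μ) R₀ := by
  have := h.locFin
  have hg := continuous_grad hφ
  obtain ⟨A, hA0, hA⟩ := exists_le_rho (hφ.continuous_fderiv (by norm_num)) (hc.fderiv ℝ)
  have hev : ∀ᶠ R : ℝ in 𝓝 R₀, ‖R • e - R₀ • e‖ < 1 :=
    (by fun_prop : ContinuousAt (fun R : ℝ => ‖R • e - R₀ • e‖) R₀).eventually
      (gt_mem_nhds (by simp))
  refine (hasDerivAt_integral_of_dominated_loc_of_deriv_le (s := {R | ‖R • e - R₀ • e‖ < 1})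
    (F := fun R x => φ (x - R • e)) (F' := fun R x => -⟪grad φ (x - R • e), e⟫)
    (bound := fun x => A * ‖e‖ * Real.exp (1 / (8 * 1)) * gk (R₀ • e) (4 * 1) x) hev
    (Eventually.of_forall fun R => (hφ.continuous.comp (by fun_prop)).aestronglyMeasurable)
    ((hφ.continuous.comp (by fun_prop)).integrable_of_hasCompactSupport
      (hc.comp_homeomorph (Homeomorph.subRight (R₀ • e))))
    (Continuous.aestronglyMeasurable (by fun_prop)) (Eventually.of_forall fun x R hR => ?_)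
    ((h.integrable_gk _ (by norm_num)).const_mul _) (Eventually.of_forall fun x R hR => ?_)).2
  · have a1 := gk_dom one_pos (by norm_num : (1:ℝ) ≤ 2 * 1) (le_of_lt hR) x
    have a2 : ‖grad φ (x - R • e)‖ ≤ A * gk (R • e) 1 x := by
      rw [gk_eq_rho, norm_grad]
      exact le_trans (le_mul_of_one_le_left (norm_nonneg _) (one_le_one_add_norm _)) (hA _)
    rw [norm_neg]
    calc _ ≤ ‖grad φ (x - R • e)‖ * ‖e‖ := norm_inner_le_norm _ _
      _ ≤ A * (Real.exp (1 / (8 * 1)) * gk (R₀ • e) (4 * 1) x) * ‖e‖ := by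
          gcongr
          exact a2.trans (by gcongr)
      _ = _ := by ring
  · have h1 : HasDerivAt (fun s : ℝ => x - s • e) (-e) R := by
      simpa using ((hasDerivAt_id R).smul_const e).const_sub x
    refine ((hφ.differentiable (by norm_num) _).hasFDerivAt.comp_hasDerivAt R h1).congr_deriv ?_
    rw [map_neg, inner_grad]

/-- the derivative of `R ↦ ∫ φ (x - R e)` is controlled by the dissipation -/
lemma ShrM.abs_deriv_le (h : ShrM m μ T H C₀) (e : E) {φ : E → ℝ} (hφ : ContDiff ℝ 1 φ)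
    (hc : HasCompactSupport φ) : ∃ A, 0 ≤ A ∧ ∀ R η : ℝ, 0 < R → 0 < η →
      |∫ x, -⟪grad φ (x - R • e), e⟫ ∂μ| * R
        ≤ A * (η * GG m μ 0 1 + (1 + η⁻¹) * (R ^ 2 * DR μ T e R / 2)) := by
  have := h.bb.locFin
  have hg := continuous_grad hφ
  obtain ⟨A, hA0, hA⟩ := exists_le_rho (hφ.continuous_fderiv (by norm_num)) (hc.fderiv ℝ)
  obtain ⟨B, hB0, hB⟩ := exists_le_rho hφ.continuous hc
  refine ⟨A + B, by positivity, fun R η hR hη => ?_⟩
  set c := R • e with hc'
  have hψ : ContDiff ℝ 1 fun x => φ (x - c) := hφ.comp (by fun_prop)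
  have hψc : HasCompactSupport fun x => φ (x - c) := hc.comp_homeomorph (Homeomorph.subRight c)
  have hgr : ∀ x, grad (fun x => φ (x - c)) x = grad φ (x - c) := fun x => by
    refine grad_unique fun v => ?_
    rw [inner_grad, fderiv_comp_sub]
  have e1 := h.mc.fv (fun x => φ (x - c) • e) (hψ.smul contDiff_const) hψc.smul_right
  have e2 : ∀ x, divAlong (T x) (fun x => φ (x - c) • e) x = ⟪proj (T x) (grad φ (x - c)), e⟫ := by
    intro x
    rw [divAlong_smul (T x) (hψ.differentiable (by norm_num) x) (differentiableAt_const e), hgr,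
      divAlong_eq]
    simp [tr]
  simp only [e2] at e1
  have a1 : ∀ x, ‖grad φ (x - c)‖ ≤ A * gk c 1 x := fun x => by
    rw [gk_eq_rho, norm_grad]
    exact le_trans (le_mul_of_one_le_left (norm_nonneg _) (one_le_one_add_norm _)) (hA _)
  have a2 : ∀ x, (1 + ‖x - c‖) * |φ (x - c)| ≤ B * gk c 1 x := fun x => by
    rw [gk_eq_rho]; exact hB _
  have i0 := h.bb.integrable_gk c one_pos
  have hm : AEStronglyMeasurable (fun x => grad φ (x - c)) μ :=
    Continuous.aestronglyMeasurable (by fun_prop)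
  have i1 : Integrable (fun x => ⟪proj (T x) (grad φ (x - c)), e⟫) μ := by
    refine (i0.const_mul (A * ‖e‖)).mono' ((MC.proj_meas h.mc hm).inner aestronglyMeasurable_const)
      (Eventually.of_forall fun x => (norm_inner_le_norm _ _).trans ?_)
    rw [mul_right_comm]
    exact mul_le_mul_of_nonneg_right ((norm_proj_apply_le _ _).trans (a1 x)) (norm_nonneg _)
  have i2 : Integrable (fun x => -⟪grad φ (x - c), e⟫) μ := by
    refine (i0.const_mul (A * ‖e‖)).mono' (hm.inner aestronglyMeasurable_const).neg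
      (Eventually.of_forall fun x => ?_)
    rw [norm_neg, mul_right_comm]
    exact (norm_inner_le_norm _ _).trans (mul_le_mul_of_nonneg_right (a1 x) (norm_nonneg _))
  have i3 : Integrable (fun x => ⟪φ (x - c) • e, H x⟫) μ := by
    refine ((h.bb.integrable_pow c one_pos 1).const_mul (B * ‖e‖)).mono'
      ((hψ.continuous.aestronglyMeasurable.smul aestronglyMeasurable_const).inner h.mc.meas) ?_
    filter_upwards [h.H_eq] with x hx
    have b1 : ‖H x‖ ≤ 1 + ‖x‖ := by
      rw [hx, norm_smul, norm_neg, Real.norm_of_nonneg (by norm_num)]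
      linarith [norm_np_le (T x) x, norm_nonneg x]
    have b2 : |φ (x - c)| ≤ B * gk c 1 x :=
      le_trans (le_mul_of_one_le_left (abs_nonneg _) (one_le_one_add_norm _)) (a2 x)
    calc _ ≤ ‖φ (x - c) • e‖ * ‖H x‖ := norm_inner_le_norm _ _
      _ ≤ (B * gk c 1 x * ‖e‖) * (1 + ‖x‖) := by
          rw [norm_smul, Real.norm_eq_abs]
          have := gk_pos c 1 x
          gcongr
      _ = _ := by ring
  have e3 : ∫ x, -⟪grad φ (x - c), e⟫ ∂μ = ∫ x, (-⟪grad φ (x - c), e⟫
      + ⟪proj (T x) (grad φ (x - c)), e⟫ + ⟪φ (x - c) • e, H x⟫) ∂μ := by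
    have j : Integrable (fun x => -⟪grad φ (x - c), e⟫ + ⟪proj (T x) (grad φ (x - c)), e⟫) μ :=
      i2.add i1
    rw [integral_add j i3, integral_add i2 i1, e1]; ring
  have i4 := h.int_DR c e
  have e4 : ‖∫ x, (-⟪grad φ (x - c), e⟫ + ⟪proj (T x) (grad φ (x - c)), e⟫
      + ⟪φ (x - c) • e, H x⟫) ∂μ‖ ≤ ∫ x, ((A + B) * (η / R) * gk c 1 x
        + (A + B) * ((1 + η⁻¹) * R / 2) * (gk c 1 x * ‖np (T x) e‖ ^ 2)) ∂μ := by
    refine norm_integral_le_of_norm_le ((i0.const_mul _).add (i4.const_mul _)) ?_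
    filter_upwards [h.H_eq] with x hx
    set n := np (T x) e with hn
    have b1 : -⟪grad φ (x - c), e⟫ + ⟪proj (T x) (grad φ (x - c)), e⟫ = -⟪grad φ (x - c), n⟫ := by
      rw [hn, np_apply, inner_sub_right, H552.inner_proj_left]; ring
    have b2 : ⟪φ (x - c) • e, H x⟫ = -(φ (x - c) * (⟪n, x - c⟫ + R * ‖n‖ ^ 2) / 2) := by
      rw [hx, real_inner_smul_left, real_inner_smul_right, ← inner_np_np, inner_np_np',
        ← real_inner_self_eq_norm_sq, hn, inner_np_np', inner_sub_right, hc',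
        real_inner_smul_right]
      ring
    have b3 : |⟪grad φ (x - c), n⟫| ≤ A * gk c 1 x * ‖n‖ :=
      (abs_real_inner_le_norm _ _).trans (mul_le_mul_of_nonneg_right (a1 x) (norm_nonneg _))
    have b4 : |φ (x - c) * ⟪n, x - c⟫| ≤ B * gk c 1 x * ‖n‖ := by
      rw [abs_mul]
      calc _ ≤ |φ (x - c)| * (‖n‖ * (1 + ‖x - c‖)) := by
            gcongr
            exact (abs_real_inner_le_norm _ _).trans (by gcongr; linarith)
        _ = (1 + ‖x - c‖) * |φ (x - c)| * ‖n‖ := by ring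
        _ ≤ _ := mul_le_mul_of_nonneg_right (a2 x) (norm_nonneg _)
    have b5 : |φ (x - c) * (R * ‖n‖ ^ 2)| ≤ B * gk c 1 x * (R * ‖n‖ ^ 2) := by
      rw [abs_mul, abs_of_nonneg (by positivity : 0 ≤ R * ‖n‖ ^ 2)]
      gcongr
      exact le_trans (le_mul_of_one_le_left (abs_nonneg _) (one_le_one_add_norm _)) (a2 x)
    have b6 : ‖n‖ ≤ η / R + η⁻¹ * R / 2 * ‖n‖ ^ 2 := by
      have c1 : η / R + η⁻¹ * R / 2 * ‖n‖ ^ 2 - ‖n‖
          = (η - R * ‖n‖ / 2) ^ 2 / (η * R) + R * ‖n‖ ^ 2 / (4 * η) := by field_simp; ring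
      have c2 : 0 ≤ (η - R * ‖n‖ / 2) ^ 2 / (η * R) + R * ‖n‖ ^ 2 / (4 * η) := by positivity
      linarith
    have g0 := gk_pos c 1 x
    have b7 : (A + B) * gk c 1 x * ‖n‖ ≤ (A + B) * gk c 1 x * (η / R + η⁻¹ * R / 2 * ‖n‖ ^ 2) := by
      gcongr
    have b8 : 0 ≤ A * gk c 1 x * (R * ‖n‖ ^ 2) := by positivity
    have b9 : 0 ≤ B * gk c 1 x * ‖n‖ := by positivity
    rw [b1, b2, Real.norm_eq_abs, abs_le]
    rw [abs_le] at b3 b4 b5
    constructor <;> nlinarith [b3.1, b3.2, b4.1, b4.2, b5.1, b5.2]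
  rw [integral_add (i0.const_mul _) (i4.const_mul _), integral_const_mul, integral_const_mul,
    Real.norm_eq_abs, ← e3] at e4
  have e5 : ∫ x, gk c 1 x ∂μ ≤ GG m μ 0 1 := by simpa [GG] using h.GG_le_zero c one_pos
  calc _ ≤ ((A + B) * (η / R) * GG m μ 0 1 + (A + B) * ((1 + η⁻¹) * R / 2) * DR μ T e R) * R := by
        refine mul_le_mul_of_nonneg_right (e4.trans ?_) hR.le
        unfold DR
        gcongr
    _ = _ := by field_simp

/-- **slow variation** of the translates -/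
theorem ShrM.slow (h : ShrM m μ T H C₀) (e : E) : Slow (NT μ e) 0 where
  bdd K hK := by
    obtain ⟨R, hR⟩ := hK.isBounded.subset_closedBall 0
    obtain ⟨C, hC, h1⟩ := exists_ball_bound E R
    exact ⟨(C * max C₀ 0).toNNReal, fun τ _ => (measure_mono hR).trans
      (h1 _ _ (le_max_right _ _) (h.bb.tl _).max 0)⟩
  slow φ hφ hc d hd ε hε := by
    obtain ⟨A, hA0, hA⟩ := h.abs_deriv_le e hφ hc
    have hF := GG_nonneg m μ 0 1
    set η : ℝ := ε / 2 / (A * GG m μ 0 1 * d + 1) with hη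
    have hη0 : 0 < η := by positivity
    have h1 : A * (η * GG m μ 0 1 * d) ≤ ε / 2 := by
      rw [show A * (η * GG m μ 0 1 * d) = η * (A * GG m μ 0 1 * d) by ring, hη, div_mul_eq_mul_div,
        div_le_iff₀ (by positivity)]
      gcongr; linarith
    have h2 := (((h.tendsto_exp e).sub_const (Th m μ e)).const_mul (A * (1 + η⁻¹))).eventually
      (gt_mem_nhds (show A * (1 + η⁻¹) * (Th m μ e - Th m μ e) < ε / 2 by simpa using hε))
    obtain ⟨τ₀, hτ₀⟩ := eventually_atTop.1 h2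
    refine ⟨max τ₀ 0, le_max_right _ _, fun τ τ' a1 a2 a3 => ?_⟩
    simp only [NT, integral_tl]
    have d1 : ∀ s, HasDerivAt (fun s => ∫ x, φ (x - Real.exp s • e) ∂μ
        - ∫ x, φ (x - Real.exp τ • e) ∂μ)
        ((∫ x, -⟪grad φ (x - Real.exp s • e), e⟫ ∂μ) * Real.exp s) s := fun s =>
      ((h.bb.hasDerivAt_tl e hφ hc (Real.exp s)).comp s (Real.hasDerivAt_exp s)).sub_const _
    have d2 : ∀ s, HasDerivAt (fun s => A * (η * GG m μ 0 1 * (s - τ) + (1 + η⁻¹)
        * (GG m μ (Real.exp τ • e) 1 - GG m μ (Real.exp s • e) 1)))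
        (A * (η * GG m μ 0 1 + (1 + η⁻¹) * (Real.exp s ^ 2 * DR μ T e (Real.exp s) / 2))) s :=
      fun s => (((((hasDerivAt_id s).sub_const τ).const_mul _).add
        (((h.hasDerivAt_exp e s).const_sub _).const_mul _)).const_mul A).congr_deriv (by ring)
    have k := image_norm_le_of_norm_deriv_right_le_deriv_boundary (a := τ) (b := τ')
      (fun s _ => (d1 s).continuousAt.continuousWithinAt) (fun s _ => (d1 s).hasDerivWithinAt)
      (by simp) d2 (fun s _ => by
        rw [norm_mul, Real.norm_of_nonneg (Real.exp_pos s).le]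
        exact hA _ η (Real.exp_pos s) hη0) (x := τ') ⟨a2, le_rfl⟩
    refine k.trans ?_
    have b1 := hτ₀ τ ((le_max_left _ _).trans a1)
    have b2 : Th m μ e ≤ GG m μ (Real.exp τ' • e) 1 :=
      ciInf_le ⟨0, by rintro _ ⟨τ, rfl⟩; exact GG_nonneg _ _ _ _⟩ τ'
    have b3 : A * (η * GG m μ 0 1 * (τ' - τ)) ≤ A * (η * GG m μ 0 1 * d) := by gcongr; linarith
    have b4 : A * (1 + η⁻¹) * (GG m μ (Real.exp τ • e) 1 - GG m μ (Real.exp τ' • e) 1)
        ≤ A * (1 + η⁻¹) * (GG m μ (Real.exp τ • e) 1 - Th m μ e) := by gcongr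
    linarith

/-- the limits are invariant under translations along `e` -/
theorem ShrM.tl_limit (h : ShrM m μ T H C₀) {e : E} (hκ : κ ∈ limitSet (NT μ e)) (s : ℝ) :
    tl κ (s • e) = κ := by
  obtain ⟨h1, τ, h2, h3⟩ := hκ
  have h4 := Real.tendsto_exp_atTop.comp h2
  have h5 : ∀ᶠ i in atTop, 2 * |s| < Real.exp (τ i) := h4.eventually_gt_atTop _
  have h6 := (h.slow e).weakTendsto_shift (σ := fun i => Real.log (Real.exp (τ i) + s)) h2 one_pos
    (h5.mono fun i hi => ?_) h3
  · have h7 : WT atTop (fun i => tl (NT μ e (τ i)) (s • e)) κ := fun φ a1 a2 => by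
      refine (h6 φ a1 a2).congr' (h5.mono fun i hi => ?_)
      have : 0 < Real.exp (τ i) + s := by linarith [neg_abs_le s, abs_nonneg s]
      simp only [NT, tl_tl, Real.exp_log this, add_smul]
    obtain ⟨C₁, hb⟩ := WT.bb (l := atTop) h3 (Eventually.of_forall fun i => h.bb.tl _)
    have := (hb.tl (s • e)).locFin
    exact (WT.tl (l := atTop) h3 (s • e)).unique h7
  · have a0 := Real.exp_pos (τ i)
    have a1 : 0 < Real.exp (τ i) + s := by linarith [neg_abs_le s, abs_nonneg s]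
    have a2 := Real.add_one_le_exp (1:ℝ)
    rw [abs_le]
    constructor
    · rw [le_sub_iff_add_le, Real.le_log_iff_exp_le a1, Real.exp_add, Real.exp_neg,
        inv_mul_le_iff₀ (Real.exp_pos 1)]
      nlinarith [neg_abs_le s, abs_nonneg s]
    · rw [sub_le_iff_le_add, Real.log_le_iff_le_exp a1, Real.exp_add]
      nlinarith [le_abs_self s, abs_nonneg s]

/-- the Gaussian ratio of the limits -/
theorem ShrM.GG_limit (h : ShrM m μ T H C₀) {e : E} (hκ : κ ∈ limitSet (NT μ e)) :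
    GG m κ 0 1 = Th m μ e := by
  obtain ⟨h1, τ, h2, h3⟩ := hκ
  have h4 := WT.tendsto_GG (l := atTop) h3 (Eventually.of_forall fun i => h.bb.tl _) m one_pos
    (tendsto_const_nhds (x := (0:E))) tendsto_const_nhds
  simp only [NT, GG_tl, add_zero] at h4
  exact tendsto_nhds_unique h4 ((h.tendsto_exp e).comp h2)

end Vale.Agent.P218N.C0
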