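import Vale.Agent.P218N.G.LIRev

/-! The Gaussian integrals of a shrinker: first variation and the monotonicity formula. -/

open MeasureTheory Set Filter Topology Metric
open scoped ENNReal NNReal RealInnerProductSpace

namespace Vale.Agent.P218N.C0

open Vale.Agent.P214 (proj divAlong)
open Vale.Agent.P218 Vale.Agent.P218.H313 Vale.Agent.P218N.G
open Vale.Agent.P218.H552 (MC)

set_option linter.unusedSectionVars false
set_option linter.unusedVariables false

variable {E : Type*} [NormedAddCommGroup E] [InnerProductSpace ℝ E] [FiniteDimensional ℝ E]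
  [MeasurableSpace E] [BorelSpace E]
variable {m : ℕ} {μ : Measure E} {T : E → Submodule ℝ E} {H : E → E} {C₀ : ℝ}

/-- the normal part -/
noncomputable def np (T : Submodule ℝ E) : E →L[ℝ] E := ContinuousLinearMap.id ℝ E - proj T

lemma np_apply (T : Submodule ℝ E) (v : E) : np T v = v - proj T v := rfl

lemma norm_np_le (T : Submodule ℝ E) (v : E) : ‖np T v‖ ≤ ‖v‖ := norm_sub_proj_le T v

lemma inner_np_np (T : Submodule ℝ E) (u v : E) : ⟪np T u, np T v⟫ = ⟪u, np T v⟫ := by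
  rw [np_apply T u, inner_sub_left,
    H552.inner_proj_of_mem_orthogonal T u (np T v) (H552.sub_proj_mem T v), sub_zero]

lemma inner_np_np' (T : Submodule ℝ E) (u v : E) : ⟪np T u, np T v⟫ = ⟪np T u, v⟫ := by
  rw [real_inner_comm, inner_np_np, real_inner_comm]

lemma MC.proj_meas (h : MC m μ T H) {v : E → E} (hv : AEStronglyMeasurable v μ) :
    AEStronglyMeasurable (fun x => proj (T x) (v x)) μ := aesm_clm_apply h.Tmeas hv

lemma MC.np_meas (h : MC m μ T H) {v : E → E} (hv : AEStronglyMeasurable v μ) :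
    AEStronglyMeasurable (fun x => np (T x) (v x)) μ := hv.sub (MC.proj_meas h hv)

lemma MC.div_meas (h : MC m μ T H) {X : E → E} (hX : ContDiff ℝ 1 X) :
    AEStronglyMeasurable (fun x => divAlong (T x) X x) μ := by
  have h1 : AEStronglyMeasurable (fun x => (proj (T x)).comp (fderiv ℝ X x)) μ := by
    have := (hX.continuous_fderiv (by norm_num)).aestronglyMeasurable (μ := μ)
    exact (isBoundedBilinearMap_comp (𝕜 := ℝ) (E := E) (F := E)
      (G := E)).continuous.comp_aestronglyMeasurable (h.Tmeas.prodMk this)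
  exact (trL E).continuous.comp_aestronglyMeasurable h1

lemma tendsto_cut_mul {u : E → ℝ} (hu : Integrable u μ) :
    Tendsto (fun n : ℕ => ∫ x, cut n x * u x ∂μ) atTop (𝓝 (∫ x, u x ∂μ)) := by
  refine tendsto_integral_of_dominated_convergence (fun x => ‖u x‖) (fun n => ?_) hu.norm
    (fun n => ?_) ?_
  · exact (contDiff_cut n).continuous.aestronglyMeasurable.mul hu.aestronglyMeasurable
  · refine Eventually.of_forall fun x => ?_
    rw [norm_mul, Real.norm_of_nonneg (cut_nonneg n x)]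
    exact mul_le_of_le_one_left (norm_nonneg _) (cut_le_one n x)
  · refine Eventually.of_forall fun x => ?_
    simpa using (tendsto_cut x).mul_const (u x)

/-- the first variation formula for integrable vector fields -/
theorem MC.fv' (h : MC m μ T H) {X : E → E} (hX : ContDiff ℝ 1 X) (h0 : Integrable X μ)
    (h1 : Integrable (fun x => divAlong (T x) X x) μ) (h2 : Integrable (fun x => ⟪X x, H x⟫) μ) :
    ∫ x, divAlong (T x) X x ∂μ = - ∫ x, ⟪X x, H x⟫ ∂μ := by
  obtain ⟨C, hC0, hC⟩ := exists_grad_cut (E := E)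
  have hb : ∀ (n : ℕ) x, ‖⟪proj (T x) (grad (cut n) x), X x⟫‖ ≤ C / ((n : ℝ) + 1) * ‖X x‖ :=
    fun n x => (norm_inner_le_norm _ _).trans
      (mul_le_mul_of_nonneg_right ((norm_proj_apply_le _ _).trans (hC n x)) (norm_nonneg _))
  have hm : ∀ n : ℕ, AEStronglyMeasurable (fun x => ⟪proj (T x) (grad (cut n) x), X x⟫) μ :=
    fun n => (MC.proj_meas h (continuous_grad (contDiff_cut n)).aestronglyMeasurable).inner
      h0.aestronglyMeasurable
  have key : ∀ n : ℕ, ∫ x, cut n x * divAlong (T x) X x ∂μ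
      + ∫ x, ⟪proj (T x) (grad (cut n) x), X x⟫ ∂μ = - ∫ x, cut n x * ⟪X x, H x⟫ ∂μ := by
    intro n
    have e := h.fv (fun z => cut n z • X z) ((contDiff_cut n).smul hX) (cut_compact n).smul_right
    have e1 : ∀ x, divAlong (T x) (fun z => cut n z • X z) x = cut n x * divAlong (T x) X x
        + ⟪proj (T x) (grad (cut n) x), X x⟫ := fun x =>
      divAlong_smul (T x) ((contDiff_cut n).differentiable (by norm_num) x)
        (hX.differentiable (by norm_num) x)
    simp only [e1, real_inner_smul_left] at e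
    rw [← e, integral_add]
    · refine h1.mono ((contDiff_cut n).continuous.aestronglyMeasurable.mul
        h1.aestronglyMeasurable) (Eventually.of_forall fun x => ?_)
      rw [norm_mul, Real.norm_of_nonneg (cut_nonneg n x)]
      exact mul_le_of_le_one_left (norm_nonneg _) (cut_le_one n x)
    · exact (h0.norm.const_mul _).mono' (hm n) (Eventually.of_forall (hb n))
  have lim2 : Tendsto (fun n : ℕ => ∫ x, ⟪proj (T x) (grad (cut n) x), X x⟫ ∂μ) atTop (𝓝 0) := by
    refine squeeze_zero_norm (a := fun n : ℕ => C / ((n : ℝ) + 1) * ∫ x, ‖X x‖ ∂μ) (fun n => ?_) ?_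
    · rw [← integral_const_mul]
      exact norm_integral_le_of_norm_le (h0.norm.const_mul _) (Eventually.of_forall (hb n))
    · have h2 : Tendsto (fun n : ℕ => C / ((n : ℝ) + 1)) atTop (𝓝 0) :=
        tendsto_const_nhds.div_atTop
          (tendsto_atTop_add_const_right _ _ tendsto_natCast_atTop_atTop)
      simpa using h2.mul_const (∫ x, ‖X x‖ ∂μ)
  have l1 := (tendsto_cut_mul h1).add lim2
  simp only [key, add_zero] at l1
  exact tendsto_nhds_unique l1 (tendsto_cut_mul h2).neg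

/-- the Gaussian with centre `c` and scale `t` -/
noncomputable def gk (c : E) (t : ℝ) (x : E) : ℝ := Real.exp (-‖x - c‖ ^ 2 / (4 * t))

lemma gk_pos (c : E) (t : ℝ) (x : E) : 0 < gk c t x := Real.exp_pos _

lemma gk_le_one (c : E) {t : ℝ} (ht : 0 < t) (x : E) : gk c t x ≤ 1 :=
  Real.exp_le_one_iff.2 (div_nonpos_of_nonpos_of_nonneg (by simp) (by positivity))

lemma contDiff_gk (c : E) (t : ℝ) : ContDiff ℝ 1 (gk c t) := by
  have : ContDiff ℝ 1 (fun y : E => ‖y - c‖ ^ 2) :=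
    (contDiff_norm_sq ℝ).comp (contDiff_id.sub contDiff_const)
  unfold gk
  fun_prop

lemma continuous_gk (c : E) (t : ℝ) : Continuous (gk c t) := (contDiff_gk c t).continuous

lemma gk_eq_rho (c x : E) : gk c 1 x = rho (x - c) := by unfold gk rho; rw [mul_one]

lemma grad_gk (c : E) (t : ℝ) (x : E) : grad (gk c t) x = (-(gk c t x) / (2 * t)) • (x - c) := by
  refine grad_unique fun v => ?_
  have h1 : HasFDerivAt (fun y : E => ‖y - c‖ ^ 2) _ x := ((hasFDerivAt_id x).sub_const c).norm_sq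
  have h2 : HasFDerivAt (gk c t) _ x := (h1.neg.mul_const (4 * t)⁻¹).exp
  rw [h2.fderiv, real_inner_smul_left]
  simp only [gk, div_eq_mul_inv, mul_inv]
  simp [inner_sub_left]
  ring

lemma pow_mul_gk_le (c : E) {t : ℝ} (ht : 0 < t) (p : ℕ) (x : E) :
    (1 + ‖x‖) ^ p * gk c t x ≤ (1 + ‖c‖) ^ p * Real.exp (2 * t * p ^ 2) * gk c (2 * t) x := by
  set r := ‖x - c‖ with hr
  have hr0 : 0 ≤ r := norm_nonneg _
  have h1 : 1 + ‖x‖ ≤ (1 + ‖c‖) * (1 + r) := by
    have := norm_sub_norm_le x c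
    nlinarith [norm_nonneg c]
  have h2 : (1 + r) ^ p ≤ Real.exp (p * r) := by
    rw [Real.exp_nat_mul]
    exact pow_le_pow_left₀ (by linarith) (by linarith [Real.add_one_le_exp r]) p
  calc (1 + ‖x‖) ^ p * gk c t x ≤ ((1 + ‖c‖) * (1 + r)) ^ p * gk c t x :=
        mul_le_mul_of_nonneg_right (pow_le_pow_left₀ (by positivity) h1 p) (gk_pos _ _ _).le
    _ ≤ (1 + ‖c‖) ^ p * (Real.exp (p * r) * gk c t x) := by
        rw [mul_pow, mul_assoc]
        exact mul_le_mul_of_nonneg_left (mul_le_mul_of_nonneg_right h2 (gk_pos _ _ _).le)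
          (by positivity)
    _ ≤ _ := by
        rw [mul_assoc]
        refine mul_le_mul_of_nonneg_left ?_ (by positivity)
        unfold gk
        rw [← Real.exp_add, ← Real.exp_add, ← hr]
        refine Real.exp_le_exp.2 ?_
        have e : 2 * t * p ^ 2 + -r ^ 2 / (4 * (2 * t)) - (p * r + -r ^ 2 / (4 * t))
            = (r - 4 * t * p) ^ 2 / (8 * t) := by field_simp; ring
        have : 0 ≤ (r - 4 * t * p) ^ 2 / (8 * t) := by positivity
        linarith

lemma gk_dom {c c₀ : E} {t t₀ : ℝ} (ht : 0 < t) (h1 : t ≤ 2 * t₀) (h2 : ‖c - c₀‖ ≤ 1) (x : E) :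
    gk c t x ≤ Real.exp (1 / (8 * t₀)) * gk c₀ (4 * t₀) x := by
  have ht₀ : 0 < t₀ := by linarith
  unfold gk
  rw [← Real.exp_add]
  refine Real.exp_le_exp.2 ?_
  have h3 : ‖x - c₀‖ ≤ ‖x - c‖ + 1 := by
    have := norm_add_le (x - c) (c - c₀)
    rw [sub_add_sub_cancel] at this
    linarith
  have h4 : ‖x - c₀‖ ^ 2 ≤ 2 * ‖x - c‖ ^ 2 + 2 := by
    have := pow_le_pow_left₀ (norm_nonneg _) h3 2
    nlinarith [sq_nonneg (‖x - c‖ - 1)]
  have h5 : ‖x - c‖ ^ 2 / (8 * t₀) ≤ ‖x - c‖ ^ 2 / (4 * t) :=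
    div_le_div_of_nonneg_left (sq_nonneg _) (by positivity) (by linarith)
  have h6 : ‖x - c₀‖ ^ 2 / (4 * (4 * t₀)) ≤ (2 * ‖x - c‖ ^ 2 + 2) / (4 * (4 * t₀)) := by gcongr
  have h7 : (2 * ‖x - c‖ ^ 2 + 2) / (4 * (4 * t₀)) = ‖x - c‖ ^ 2 / (8 * t₀) + 1 / (8 * t₀) := by
    field_simp; ring
  rw [neg_div, neg_div]
  linarith

/-- measures with uniformly bounded mass of unit balls -/
def BB (μ : Measure E) (C₀ : ℝ) : Prop := ∀ x, μ (closedBall x 1) ≤ ENNReal.ofReal C₀

lemma BB.locFin (h : BB μ C₀) : IsLocallyFiniteMeasure μ :=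
  ⟨fun x => ⟨closedBall x 1, closedBall_mem_nhds x one_pos, (h x).trans_lt ENNReal.ofReal_lt_top⟩⟩

/-- uniform bound for the Gaussian integrals -/
theorem exists_gk_bound (E : Type*) [NormedAddCommGroup E] [InnerProductSpace ℝ E]
    [FiniteDimensional ℝ E] [MeasurableSpace E] [BorelSpace E] {t : ℝ} (ht : 0 < t) :
    ∃ C : ℝ, 0 ≤ C ∧ ∀ (μ : Measure E) (C₀ : ℝ), 0 ≤ C₀ → BB μ C₀ → ∀ c,
      Integrable (gk c t) μ ∧ ∫ x, gk c t x ∂μ ≤ C * C₀ := by
  obtain ⟨C, hC, h⟩ := exists_gauss_bound E (a := 1 / (4 * t)) (r := 1) (by positivity) one_pos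
  refine ⟨C.toReal, ENNReal.toReal_nonneg, fun μ C₀ h0 hμ c => ?_⟩
  have := hμ.locFin
  have he : MeasurableEmbedding fun x : E => x - c := (Homeomorph.subRight c).measurableEmbedding
  have h1 := h (μ.map fun x => x - c) (ENNReal.ofReal C₀) fun x => by
    rw [he.map_apply]
    refine le_trans (le_of_eq ?_) (hμ (x + c))
    congr 1
    ext y
    simp only [mem_preimage, mem_closedBall, dist_eq_norm]
    rw [sub_sub, add_comm]
  rw [he.lintegral_map] at h1
  have h2 : ∫⁻ x, ENNReal.ofReal (gk c t x) ∂μ ≤ C * ENNReal.ofReal C₀ := by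
    refine le_trans (le_of_eq ?_) h1
    congr 1; ext x; unfold gk; congr 2; ring
  have hne : C * ENNReal.ofReal C₀ ≠ ⊤ := ENNReal.mul_ne_top hC ENNReal.ofReal_ne_top
  constructor
  · refine ⟨(continuous_gk c t).aestronglyMeasurable, ?_⟩
    rw [hasFiniteIntegral_iff_ofReal (Eventually.of_forall fun y => (gk_pos c t y).le)]
    exact h2.trans_lt hne.lt_top
  · rw [integral_eq_lintegral_of_nonneg_ae (Eventually.of_forall fun y => (gk_pos c t y).le)
      (continuous_gk c t).aestronglyMeasurable]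
    refine (ENNReal.toReal_mono hne h2).trans (le_of_eq ?_)
    rw [ENNReal.toReal_mul, ENNReal.toReal_ofReal h0]

lemma BB.max (h : BB μ C₀) : BB μ (max C₀ 0) := fun x =>
  (h x).trans (ENNReal.ofReal_le_ofReal (le_max_left _ _))

lemma BB.integrable_gk (h : BB μ C₀) (c : E) {t : ℝ} (ht : 0 < t) : Integrable (gk c t) μ := by
  obtain ⟨C, -, h1⟩ := exists_gk_bound E ht
  exact (h1 μ _ (le_max_right _ _) h.max c).1

lemma BB.integrable_pow (h : BB μ C₀) (c : E) {t : ℝ} (ht : 0 < t) (p : ℕ) :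
    Integrable (fun x => (1 + ‖x‖) ^ p * gk c t x) μ := by
  refine ((h.integrable_gk c (t := 2 * t) (by positivity)).const_mul
    ((1 + ‖c‖) ^ p * Real.exp (2 * t * p ^ 2))).mono'
    ((by fun_prop : Continuous fun x : E => (1 + ‖x‖) ^ p).mul
      (continuous_gk c t)).aestronglyMeasurable (Eventually.of_forall fun x => ?_)
  rw [Real.norm_of_nonneg (mul_nonneg (by positivity) (gk_pos _ _ _).le)]
  exact pow_mul_gk_le c ht p x

/-- integrability of functions of polynomial growth against a Gaussian -/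
lemma BB.integrable {F : Type*} [NormedAddCommGroup F] [NormedSpace ℝ F] (h : BB μ C₀) (c : E)
    {t : ℝ} (ht : 0 < t) {u : E → F} (hu : AEStronglyMeasurable u μ) (hb : PB u) :
    Integrable (fun x => gk c t x • u x) μ := by
  obtain ⟨C, p, hC, hb⟩ := hb
  refine ((h.integrable_pow c ht p).const_mul C).mono'
    ((continuous_gk c t).aestronglyMeasurable.smul hu) (Eventually.of_forall fun x => ?_)
  rw [norm_smul, Real.norm_of_nonneg (gk_pos _ _ _).le, ← mul_assoc, mul_comm]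
  exact mul_le_mul_of_nonneg_right (hb x) (gk_pos _ _ _).le

lemma pb_proj {v : E → E} (hv : PB v) : PB fun x => proj (T x) (v x) :=
  hv.mono fun x => norm_proj_apply_le _ _

lemma pb_np {v : E → E} (hv : PB v) : PB fun x => np (T x) (v x) :=
  hv.mono fun x => norm_np_le _ _

/-- a shrinker in the weak sense -/
structure ShrM (m : ℕ) (μ : Measure E) (T : E → Submodule ℝ E) (H : E → E) (C₀ : ℝ) : Prop where
  mc : MC m μ T H
  vel : ∀ᵐ x ∂μ, vel T H x = 0
  bb : BB μ C₀

lemma ShrM.H_eq (h : ShrM m μ T H C₀) : ∀ᵐ x ∂μ, H x = -(1 / 2 : ℝ) • np (T x) x := by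
  filter_upwards [h.vel] with x hx
  rw [neg_smul]
  exact eq_neg_of_add_eq_zero_left hx

/-- the first variation for `X = K (α (x - c) + y)` -/
theorem ShrM.fv_gk (h : ShrM m μ T H C₀) (c y : E) {t : ℝ} (ht : 0 < t) (α : ℝ) :
    ∫ x, gk c t x * (α * m - ⟪proj (T x) (x - c), α • (x - c) + y⟫ / (2 * t)
      - ⟪np (T x) (α • (x - c) + y), np (T x) x⟫ / 2) ∂μ = 0 := by
  set V : E → E := fun x => α • (x - c) + y with hV
  have hVc : ContDiff ℝ 1 V := by rw [hV]; fun_prop
  have hs : PB fun x : E => x - c := PB.id'.sub (PB.const c)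
  have hVb : PB V := ((PB.const α).smul hs).add (PB.const y)
  have hVm := hVc.continuous.aestronglyMeasurable (μ := μ)
  have hid : AEStronglyMeasurable (fun x : E => x) μ := continuous_id.aestronglyMeasurable
  have e1 : ∀ᵐ x ∂μ, divAlong (T x) (fun z => gk c t z • V z) x
      = gk c t x • (α * m - ⟪proj (T x) (x - c), V x⟫ / (2 * t)) := by
    filter_upwards [h.mc.dim] with x hx
    have a1 : HasFDerivAt V (α • ContinuousLinearMap.id ℝ E) x :=
      (((hasFDerivAt_id x).sub_const c).const_smul α).add_const y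
    rw [divAlong_smul (T x) ((contDiff_gk c t).differentiable (by norm_num) x)
      (hVc.differentiable (by norm_num) x), grad_gk, map_smul, real_inner_smul_left, divAlong_eq,
      a1.fderiv, ContinuousLinearMap.comp_smul, ContinuousLinearMap.comp_id, tr_smul, tr_proj, hx,
      smul_eq_mul]
    ring
  have e2 : ∀ᵐ x ∂μ, ⟪gk c t x • V x, H x⟫
      = gk c t x • (-(⟪np (T x) (V x), np (T x) x⟫ / 2)) := by
    filter_upwards [h.H_eq] with x hx
    rw [hx, real_inner_smul_left, real_inner_smul_right, inner_np_np, smul_eq_mul]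
    ring
  have i1 : Integrable (fun x => gk c t x • (α * m - ⟪proj (T x) (x - c), V x⟫ / (2 * t))) μ :=
    h.bb.integrable c ht (aestronglyMeasurable_const.sub (((MC.proj_meas h.mc
      (hid.sub aestronglyMeasurable_const)).inner hVm).mul_const (2 * t)⁻¹))
      ((PB.const _).sub (((pb_proj hs).inner' hVb).mul (PB.const (2 * t)⁻¹)))
  have i2 : Integrable (fun x => gk c t x • (-(⟪np (T x) (V x), np (T x) x⟫ / 2))) μ :=
    h.bb.integrable c ht (((MC.np_meas h.mc hVm).inner (MC.np_meas h.mc hid)).mul_const 2⁻¹).neg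
      (((pb_np hVb).inner' (pb_np PB.id')).mul (PB.const 2⁻¹)).neg
  have e := MC.fv' h.mc (X := fun z => gk c t z • V z) ((contDiff_gk c t).smul hVc)
    (h.bb.integrable c ht hVm hVb)
    (i1.congr (e1.mono fun x hx => hx.symm)) (i2.congr (e2.mono fun x hx => hx.symm))
  have e3 : ∫ x, gk c t x • (α * m - ⟪proj (T x) (x - c), V x⟫ / (2 * t)) ∂μ
      + ∫ x, gk c t x • (-(⟪np (T x) (V x), np (T x) x⟫ / 2)) ∂μ = 0 := by
    rw [← integral_congr_ae e1, ← integral_congr_ae e2]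
    exact add_eq_zero_iff_eq_neg.2 e
  rw [← integral_add i1 i2] at e3
  refine Eq.trans (integral_congr_ae (Eventually.of_forall fun x => ?_)) e3
  simp only [smul_eq_mul]
  ring

/-- the Gaussian ratio with centre `c` and scale `t` -/
noncomputable def GG (m : ℕ) (μ : Measure E) (c : E) (t : ℝ) : ℝ := (∫ x, gk c t x ∂μ) / √t ^ m

lemma GG_nonneg (m : ℕ) (μ : Measure E) (c : E) (t : ℝ) : 0 ≤ GG m μ c t :=
  div_nonneg (integral_nonneg fun x => (gk_pos c t x).le) (by positivity)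

lemma GG_one (m : ℕ) (μ : Measure E) (c : E) : GG m μ c 1 = ∫ x, rho (x - c) ∂μ := by
  simp [GG, gk_eq_rho]

lemma ev_near (c₀ : E) {t₀ : ℝ} (ht : 0 < t₀) :
    ∀ᶠ p : E × ℝ in 𝓝 (c₀, t₀), t₀ / 2 < p.2 ∧ p.2 < 2 * t₀ ∧ ‖p.1 - c₀‖ < 1 := by
  have h1 : ContinuousAt (fun p : E × ℝ => p.2) (c₀, t₀) := continuousAt_snd
  have h2 : ContinuousAt (fun p : E × ℝ => ‖p.1 - c₀‖) (c₀, t₀) := by fun_prop
  exact (h1.eventually (lt_mem_nhds (by simpa using ht))).and
    ((h1.eventually (gt_mem_nhds (by show t₀ < 2 * t₀; linarith))).and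
      (h2.eventually (gt_mem_nhds (by simp))))

theorem BB.continuousAt_GG (h : BB μ C₀) (m : ℕ) (c₀ : E) {t₀ : ℝ} (ht : 0 < t₀) :
    ContinuousAt (fun p : E × ℝ => GG m μ p.1 p.2) (c₀, t₀) := by
  refine ContinuousAt.div ?_ (by fun_prop) (by positivity)
  refine continuousAt_of_dominated (bound := fun x => Real.exp (1 / (8 * t₀)) * gk c₀ (4 * t₀) x)
    (Eventually.of_forall fun p => (continuous_gk _ _).aestronglyMeasurable) ?_
    ((h.integrable_gk c₀ (by positivity)).const_mul _) (Eventually.of_forall fun x => ?_)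
  · filter_upwards [ev_near c₀ ht] with p hp
    refine Eventually.of_forall fun x => ?_
    rw [Real.norm_of_nonneg (gk_pos _ _ _).le]
    exact gk_dom (by linarith [hp.1]) hp.2.1.le hp.2.2.le x
  · unfold gk
    fun_prop (disch := simp; positivity)

lemma hasDerivAt_gk (y x : E) (a : ℝ) {s : ℝ} (ht : 0 < 1 + a * s ^ 2) :
    HasDerivAt (fun s : ℝ => gk (s • y) (1 + a * s ^ 2) x) (gk (s • y) (1 + a * s ^ 2) x *
      (⟪x - s • y, (a * s / (1 + a * s ^ 2)) • (x - s • y) + y⟫ / (2 * (1 + a * s ^ 2)))) s := by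
  have h1 : HasDerivAt (fun s : ℝ => x - s • y) (-y) s := by
    simpa using ((hasDerivAt_id s).smul_const y).const_sub x
  have h2 : HasDerivAt (fun s : ℝ => 4 * (1 + a * s ^ 2)) (4 * (a * (2 * s))) s := by
    simpa using (((hasDerivAt_pow 2 s).const_mul a).const_add 1).const_mul 4
  refine ((h1.norm_sq.neg.div h2 (by positivity)).exp).congr_deriv ?_
  rw [inner_add_right, real_inner_smul_right, real_inner_self_eq_norm_sq, inner_neg_right]
  unfold gk
  simp only [Pi.neg_apply, Pi.div_apply]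
  congr 1
  field_simp
  ring

theorem BB.hasDerivAt_int (h : BB μ C₀) (y : E) (a : ℝ) {s₀ : ℝ} (ht : 0 < 1 + a * s₀ ^ 2) :
    HasDerivAt (fun s : ℝ => ∫ x, gk (s • y) (1 + a * s ^ 2) x ∂μ)
      (∫ x, gk (s₀ • y) (1 + a * s₀ ^ 2) x * (⟪x - s₀ • y,
        (a * s₀ / (1 + a * s₀ ^ 2)) • (x - s₀ • y) + y⟫ / (2 * (1 + a * s₀ ^ 2))) ∂μ) s₀ := by
  set t₀ := 1 + a * s₀ ^ 2 with ht₀
  have hc : ContinuousAt (fun s : ℝ => (s • y, 1 + a * s ^ 2)) s₀ := by fun_prop
  have hev : ∀ᶠ s in 𝓝 s₀, (t₀ / 2 < 1 + a * s ^ 2 ∧ 1 + a * s ^ 2 < 2 * t₀ ∧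
      ‖s • y - s₀ • y‖ < 1) ∧ |s| < |s₀| + 1 :=
    (hc.eventually (ev_near (s₀ • y) ht)).and
      (continuous_abs.continuousAt.eventually (gt_mem_nhds (lt_add_one _)))
  set A : ℝ := |a| * (|s₀| + 1) / (t₀ / 2) with hA
  set B : ℝ := 1 + (|s₀| + 1) * ‖y‖ with hB
  have hA0 : 0 ≤ A := by positivity
  have hB1 : 1 ≤ B := le_add_of_nonneg_right (by positivity)
  refine (hasDerivAt_integral_of_dominated_loc_of_deriv_le (s := {s | (t₀ / 2 < 1 + a * s ^ 2 ∧
      1 + a * s ^ 2 < 2 * t₀ ∧ ‖s • y - s₀ • y‖ < 1) ∧ |s| < |s₀| + 1})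
    (F := fun s x => gk (s • y) (1 + a * s ^ 2) x)
    (F' := fun s x => gk (s • y) (1 + a * s ^ 2) x * (⟪x - s • y,
        (a * s / (1 + a * s ^ 2)) • (x - s • y) + y⟫ / (2 * (1 + a * s ^ 2))))
    (bound := fun x => Real.exp (1 / (8 * t₀)) * (B * (A * B + ‖y‖) / t₀)
      * ((1 + ‖x‖) ^ 2 * gk (s₀ • y) (4 * t₀) x)) hev
    (Eventually.of_forall fun s => (continuous_gk _ _).aestronglyMeasurable)
    (h.integrable_gk _ ht) ?_ (Eventually.of_forall fun x s hs => ?_)
    ((h.integrable_pow _ (by positivity) 2).const_mul _)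
    (Eventually.of_forall fun x s hs => hasDerivAt_gk y x a ((half_pos ht).trans hs.1.1))).2
  · exact ((continuous_gk _ _).mul (by fun_prop)).aestronglyMeasurable
  · obtain ⟨⟨a1, a2, a3⟩, a4⟩ := hs
    have a0 : 0 < 1 + a * s ^ 2 := (half_pos ht).trans a1
    have hx := norm_nonneg x
    have b1 : ‖x - s • y‖ ≤ B * (1 + ‖x‖) := by
      have c1 : ‖s • y‖ ≤ (|s₀| + 1) * ‖y‖ := by
        rw [norm_smul, Real.norm_eq_abs]; gcongr
      have c2 := norm_sub_le x (s • y)
      have c3 : 0 ≤ (|s₀| + 1) * ‖y‖ * ‖x‖ := by positivity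
      rw [hB]; nlinarith
    have b2 : |a * s / (1 + a * s ^ 2)| ≤ A := by
      rw [abs_div, abs_mul, abs_of_pos a0, hA]; gcongr
    have b3 : ‖(a * s / (1 + a * s ^ 2)) • (x - s • y) + y‖ ≤ (A * B + ‖y‖) * (1 + ‖x‖) := by
      refine (norm_add_le _ _).trans ?_
      rw [norm_smul, Real.norm_eq_abs]
      have c1 : |a * s / (1 + a * s ^ 2)| * ‖x - s • y‖ ≤ A * (B * (1 + ‖x‖)) := by gcongr
      have c2 : 0 ≤ ‖y‖ * ‖x‖ := by positivity
      nlinarith
    have b4 := gk_dom a0 a2.le a3.le x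
    rw [norm_mul, Real.norm_of_nonneg (gk_pos _ _ _).le, norm_div,
      Real.norm_of_nonneg (by positivity : 0 ≤ 2 * (1 + a * s ^ 2))]
    have b5 := gk_pos (s₀ • y) (4 * t₀) x
    calc _ ≤ (Real.exp (1 / (8 * t₀)) * gk (s₀ • y) (4 * t₀) x)
          * ((B * (1 + ‖x‖)) * ((A * B + ‖y‖) * (1 + ‖x‖)) / t₀) := by
          refine mul_le_mul b4 ?_ (by positivity) (by positivity)
          refine div_le_div₀ (by positivity) ((norm_inner_le_norm _ _).trans ?_) ht (by linarith)
          gcongr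
      _ = _ := by ring

/-- the dissipation -/
noncomputable def DG (μ : Measure E) (T : E → Submodule ℝ E) (y : E) (a s : ℝ) : ℝ :=
  ∫ x, gk (s • y) (1 + a * s ^ 2) x * ‖np (T x) ((a * s) • x + y)‖ ^ 2 ∂μ

lemma DG_nonneg (μ : Measure E) (T : E → Submodule ℝ E) (y : E) (a s : ℝ) : 0 ≤ DG μ T y a s :=
  integral_nonneg fun x => mul_nonneg (gk_pos _ _ _).le (sq_nonneg _)

/-- **The monotonicity formula** -/
theorem ShrM.hasDerivAt_GG (h : ShrM m μ T H C₀) (y : E) (a : ℝ) {s : ℝ} (ht : 0 < 1 + a * s ^ 2) :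
    HasDerivAt (fun s : ℝ => GG m μ (s • y) (1 + a * s ^ 2))
      (-(s / (2 * (1 + a * s ^ 2) ^ 2)) * DG μ T y a s / √(1 + a * s ^ 2) ^ m) s := by
  have h1 := h.bb.hasDerivAt_int y a ht
  have h2 : HasDerivAt (fun s : ℝ => 1 + a * s ^ 2) (a * (2 * s)) s := by
    simpa using ((hasDerivAt_pow 2 s).const_mul a).const_add 1
  have h3 : HasDerivAt (fun s : ℝ => √(1 + a * s ^ 2) ^ m)
      (a * s / (1 + a * s ^ 2) * m * √(1 + a * s ^ 2) ^ m) s := by
    refine ((h2.sqrt ht.ne').fun_pow m).congr_deriv ?_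
    have hq := Real.sqrt_pos.2 ht
    have hq2 := Real.sq_sqrt ht.le
    generalize √(1 + a * s ^ 2) = q at hq hq2 ⊢
    rw [← hq2]
    rcases m with _ | m
    · simp
    · simp only [Nat.add_sub_cancel]
      field_simp
      ring
  have hq : 0 < √(1 + a * s ^ 2) ^ m := pow_pos (Real.sqrt_pos.2 ht) m
  refine (h1.fun_div h3 hq.ne').congr_deriv ?_
  set t := 1 + a * s ^ 2 with ht'
  set α := a * s / t with hα
  have hid : AEStronglyMeasurable (fun x : E => x) μ := continuous_id.aestronglyMeasurable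
  have hs : PB fun x : E => x - s • y := PB.id'.sub (PB.const _)
  have hVb : PB fun x : E => α • (x - s • y) + y := ((PB.const α).smul hs).add (PB.const y)
  have i1 : Integrable (fun x => gk (s • y) t x
      * (⟪x - s • y, α • (x - s • y) + y⟫ / (2 * t))) μ :=
    h.bb.integrable (s • y) ht (u := fun x => ⟪x - s • y, α • (x - s • y) + y⟫ / (2 * t))
      (Continuous.aestronglyMeasurable (by fun_prop)) ((hs.inner' hVb).mul (PB.const (2 * t)⁻¹))
  have i2 : Integrable (fun x => gk (s • y) t x * ‖np (T x) ((a * s) • x + y)‖ ^ 2) μ :=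
    h.bb.integrable (s • y) ht (u := fun x => ‖np (T x) ((a * s) • x + y)‖ ^ 2)
      ((MC.np_meas h.mc (Continuous.aestronglyMeasurable (by fun_prop))).norm.pow 2)
      ((pb_np (((PB.const _).smul PB.id').add (PB.const y))).norm.pow 2)
  have i3 := h.bb.integrable_gk (s • y) ht
  have e := h.fv_gk (s • y) y ht α
  have e2 : ∀ x, gk (s • y) t x * (α * m - ⟪proj (T x) (x - s • y), α • (x - s • y) + y⟫ / (2 * t)
      - ⟪np (T x) (α • (x - s • y) + y), np (T x) x⟫ / 2)
      = (α * m) * gk (s • y) t x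
        + (-1) * (gk (s • y) t x * (⟪x - s • y, α • (x - s • y) + y⟫ / (2 * t)))
        + (-(s / (2 * t ^ 2))) * (gk (s • y) t x * ‖np (T x) ((a * s) • x + y)‖ ^ 2) := by
    intro x
    have a1 : proj (T x) (x - s • y) = (x - s • y) - np (T x) (x - s • y) := by
      rw [np_apply]; abel
    rw [a1, inner_sub_left (x - s • y), ← inner_np_np' (T x) (x - s • y),
      ← real_inner_self_eq_norm_sq]
    simp only [map_add, map_smul, map_sub]
    generalize np (T x) x = u
    generalize np (T x) y = v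
    generalize ⟪x - s • y, α • (x - s • y) + y⟫ = w
    simp only [inner_add_left, inner_add_right, inner_sub_left, inner_sub_right,
      real_inner_smul_left, real_inner_smul_right, real_inner_comm u v]
    have ht2 : t = 1 + a * s ^ 2 := ht'
    rw [hα]
    field_simp
    rw [ht2]
    ring
  simp only [e2] at e
  rw [integral_comb i3 i1 i2] at e
  unfold DG
  rw [← ht']
  field_simp
  field_simp at e
  linarith

/-- the Gaussian ratio decreases along the curves `(s y, 1 + a s²)` -/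
theorem ShrM.GG_anti (h : ShrM m μ T H C₀) (y : E) (a : ℝ) {s₁ s₂ : ℝ} (h0 : 0 ≤ s₁)
    (h12 : s₁ ≤ s₂) (ht : 0 < 1 + a * s₂ ^ 2) :
    GG m μ (s₂ • y) (1 + a * s₂ ^ 2) ≤ GG m μ (s₁ • y) (1 + a * s₁ ^ 2) := by
  have hpos : ∀ s ∈ Icc s₁ s₂, 0 < 1 + a * s ^ 2 := fun s hs => by
    have h1 : s ^ 2 ≤ s₂ ^ 2 := pow_le_pow_left₀ (h0.trans hs.1) hs.2 2
    rcases le_total 0 a with ha | ha
    · positivity
    · nlinarith
  refine antitoneOn_of_deriv_nonpos (f := fun s : ℝ => GG m μ (s • y) (1 + a * s ^ 2))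
    (convex_Icc s₁ s₂) (fun s hs => (h.hasDerivAt_GG y a (hpos s hs)).continuousAt.continuousWithinAt)
    (fun s hs => (h.hasDerivAt_GG y a
      (hpos s (interior_subset hs))).differentiableAt.differentiableWithinAt) (fun s hs => ?_)
    ⟨le_rfl, h12⟩ ⟨h12, le_rfl⟩ h12
  have hs' := interior_subset hs
  rw [(h.hasDerivAt_GG y a (hpos s hs')).deriv]
  have h1 : 0 ≤ s := h0.trans hs'.1
  have h2 := DG_nonneg μ T y a s
  rw [neg_mul, neg_div]
  exact neg_nonpos.2 (by positivity)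

/-- comparison with a larger scale of the flow `√(-τ) S` -/
theorem ShrM.GG_le (h : ShrM m μ T H C₀) (c : E) {t σ : ℝ} (ht : 0 < t) (h0 : 0 ≤ σ)
    (h1 : σ ≤ 1) : GG m μ c t ≤ GG m μ (σ • c) (1 + (t - 1) * σ ^ 2) := by
  simpa using h.GG_anti c (t - 1) h0 h1 (by simpa using ht)

/-- the entropy is attained at the origin -/
theorem ShrM.GG_le_zero (h : ShrM m μ T H C₀) (c : E) {t : ℝ} (ht : 0 < t) :
    GG m μ c t ≤ GG m μ 0 1 := by
  simpa using h.GG_le c ht le_rfl zero_le_one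

end Vale.Agent.P218N.C0
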